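import Vale.Agent.P161.Sums
import Vale.Agent.P161.Law
import Vale.Agent.P161.Crit.Aut

/-!
Correlations at distance `k` in an invariant random field of finite range on a regular tree:
the spherical average is at most `2 (k + 1) √(d-1) ^ k`.
-/

namespace Vale.Agent.P161.Converse

open MeasureTheory SimpleGraph Finset Filter

variable {V : Type*} [DecidableEq V] {G : SimpleGraph V} [G.LocallyFinite] {d : ℕ}

/-- The sum over the sphere of radius `k`. -/
noncomputable def sphereSum (G : SimpleGraph V) [G.LocallyFinite] (k : ℕ) (g : V → ℝ) (v : V) : ℝ :=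
  ∑ u ∈ sphereF G v k, g u

/-- The weight `√(d-1) ^ (-dist o v)`. -/
noncomputable def treeWeight (G : SimpleGraph V) (d : ℕ) (o v : V) : ℝ :=
  (1 / Real.sqrt ((d : ℝ) - 1)) ^ G.dist o v

lemma sqrt_deg_pos (hd : 3 ≤ d) : 0 < Real.sqrt ((d : ℝ) - 1) := by
  have : (3 : ℝ) ≤ d := by exact_mod_cast hd
  exact Real.sqrt_pos.2 (by linarith)

omit [DecidableEq V] [G.LocallyFinite] in
/-- A vertex not beyond `v` seen from `o` is one step closer to the neighbour of `v` towards `o`. -/
lemma dist_parent (hG : G.IsTree) {o v p u : V} (hp : G.Adj v p) (hpd : G.dist o p + 1 = G.dist o v)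
    (h : G.dist o u ≠ G.dist o v + G.dist v u) : G.dist p u + 1 = G.dist v u := by
  rcases hG.dist_eq_dist_add_one_of_adj u hp with h' | h'
  · rw [dist_comm (u := p), dist_comm (u := v) (v := u)]; exact h'.symm
  · exfalso
    have := dist_through_edge hG hp hpd (G.dist v u) u rfl h'
    rw [dist_comm (u := u) (v := o), dist_comm (u := u) (v := v), dist_comm (u := v) (v := o)] at this
    exact h (this.trans (add_comm _ _))

/-- The weight is an approximate eigenfunction of every spherical sum. -/
lemma sphereSum_weight_le (hG : G.IsTree) (hd : 3 ≤ d) (hreg : ∀ v, G.degree v = d) (o : V) :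
    ∀ k v, sphereSum G k (treeWeight G d o) v ≤
      2 * ((k : ℝ) + 1) * Real.sqrt ((d : ℝ) - 1) ^ k * treeWeight G d o v := by
  have hsq := sqrt_deg_pos hd
  set r := Real.sqrt ((d : ℝ) - 1) with hr
  have hw : ∀ v, 0 ≤ treeWeight G d o v := fun v => pow_nonneg (by positivity) _
  have hr2 : r ^ 2 = (d : ℝ) - 1 := by
    have : (3 : ℝ) ≤ d := by exact_mod_cast hd
    exact Real.sq_sqrt (by linarith)
  have hd1 : ((d - 1 : ℕ) : ℝ) = r ^ 2 := by
    rw [Nat.cast_sub (by omega), hr2]; simp
  -- the outer vertices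
  have outer : ∀ k v, ∑ u ∈ (sphereF G v k).filter (fun u => G.dist o u = G.dist o v + G.dist v u),
      treeWeight G d o u ≤ 2 * r ^ k * treeWeight G d o v := by
    intro k v
    refine (Finset.sum_le_card_nsmul _ _ (treeWeight G d o v * (1 / r) ^ k) fun u hu => ?_).trans ?_
    · obtain ⟨h1, h2⟩ := Finset.mem_filter.1 hu
      rw [treeWeight, treeWeight, h2, (mem_sphereF hG).1 h1, pow_add]
    · rw [nsmul_eq_mul]
      have hc : (((sphereF G v k).filter fun u => G.dist o u = G.dist o v + G.dist v u).card : ℝ) ≤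
          2 * (r ^ 2) ^ k := by
        rw [← hd1]
        exact_mod_cast (Finset.card_filter_le _ _).trans (card_sphereF_le hG hd hreg v k)
      refine (mul_le_mul_of_nonneg_right hc (mul_nonneg (hw v) (by positivity))).trans_eq ?_
      rw [← pow_mul, mul_comm 2 k, pow_mul, one_div, inv_pow]
      field_simp
  intro k
  induction k with
  | zero =>
    intro v
    have : sphereF G v 0 = {v} := by
      ext u
      rw [mem_sphereF hG, hG.connected.dist_eq_zero_iff, Finset.mem_singleton]
      exact eq_comm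
    simp [sphereSum, this]
    linarith [hw v]
  | succ k ih =>
    intro v
    unfold sphereSum at ih ⊢
    rw [← Finset.sum_filter_add_sum_filter_not (sphereF G v (k + 1))
      fun u => G.dist o u = G.dist o v + G.dist v u]
    rcases eq_or_ne o v with rfl | hov
    · have e : (sphereF G o (k + 1)).filter (fun u => ¬ G.dist o u = G.dist o o + G.dist o u) = ∅ :=
        Finset.filter_eq_empty_iff.2 fun u _ => by simp
      rw [e, Finset.sum_empty, add_zero]
      refine (outer (k + 1) o).trans ?_
      refine mul_le_mul_of_nonneg_right (mul_le_mul_of_nonneg_right ?_ (pow_nonneg hsq.le _)) (hw o)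
      push_cast
      linarith [(Nat.cast_nonneg k : (0:ℝ) ≤ k)]
    obtain ⟨p, hp, hpd⟩ := exists_closer hG hov
    have hsub : (sphereF G v (k + 1)).filter (fun u => ¬ G.dist o u = G.dist o v + G.dist v u) ⊆
        sphereF G p k := fun u hu => by
      obtain ⟨h1, h2⟩ := Finset.mem_filter.1 hu
      rw [mem_sphereF hG] at h1 ⊢
      have := dist_parent hG hp hpd h2
      omega
    have hwp : treeWeight G d o p = r * treeWeight G d o v := by
      rw [treeWeight, treeWeight, ← hpd, pow_succ, ← hr]
      field_simp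
    refine (add_le_add (outer (k + 1) v)
      ((Finset.sum_le_sum_of_subset_of_nonneg hsub fun u _ _ => hw u).trans (ih p))).trans_eq ?_
    rw [hwp]
    push_cast
    ring

/-- At least `(d-1) ^ k` vertices at distance `k`. -/
lemma le_card_sphereF (hG : G.IsTree) (hd : 3 ≤ d) (hreg : ∀ v, G.degree v = d) (o : V) :
    ∀ k, (d - 1) ^ k ≤ (sphereF G o k).card := by
  intro k
  induction k with
  | zero => exact Finset.card_pos.2 ⟨o, (mem_sphereF hG).2 (by simp)⟩
  | succ k ih =>
    have hsub : (sphereF G o k).biUnion (fun p => Crit.kids G o p) ⊆ sphereF G o (k + 1) := by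
      intro v hv
      obtain ⟨p, hp, hv'⟩ := Finset.mem_biUnion.1 hv
      rw [mem_sphereF hG] at hp ⊢
      have := (Crit.mem_kids.1 hv').2
      omega
    refine le_trans ?_ (Finset.card_le_card hsub)
    rw [Finset.card_biUnion fun a ha b hb hab => Finset.disjoint_left.2 fun v hva hvb => hab ?_]
    · refine le_trans ?_ (Finset.card_nsmul_le_sum _ _ (d - 1) fun p _ => ?_)
      · rw [smul_eq_mul, pow_succ]; exact Nat.mul_le_mul_right _ ih
      · rw [Crit.card_kids hG hreg]; split_ifs <;> omega
    · obtain ⟨a1, a2⟩ := Crit.mem_kids.1 hva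
      obtain ⟨b1, b2⟩ := Crit.mem_kids.1 hvb
      exact closer_unique hG a1.symm b1.symm a2.symm b2.symm

/-- Two vertices can be exchanged by an automorphism. -/
lemma exists_swap (hG : G.IsTree) (hreg : ∀ v, G.degree v = d) (u v : V) :
    ∃ e : G ≃g G, e u = v ∧ e v = u := by
  obtain ⟨hs, h0, hk⟩ := Crit.geod_spec hG u v
  obtain ⟨e, he⟩ := Crit.exists_aut_seg hG hreg hs hs.rev
  refine ⟨e, ?_, ?_⟩
  · have := he 0 (Nat.zero_le _)
    rwa [h0, Nat.sub_zero, hk] at this
  · have := he _ le_rfl
    rwa [hk, Nat.sub_self, h0] at this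

lemma sphereF_map (hG : G.IsTree) (e : G ≃g G) (v : V) (k : ℕ) :
    (sphereF G v k).image e = sphereF G (e v) k := by
  ext u
  obtain ⟨u, rfl⟩ := e.surjective u
  rw [e.injective.mem_finset_image, mem_sphereF hG, mem_sphereF hG, (Crit.geod_map hG e v u).1]

/-- The iterated spherical sum of a random field. -/
noncomputable def itSum {Ω : Type*} (G : SimpleGraph V) [G.LocallyFinite] (k : ℕ)
    (f : V → Ω → ℝ) (a : ℕ) (v : V) (ω : Ω) : ℝ :=
  (sphereSum G k)^[a] (fun u => f u ω) v

section field

variable {Ω : Type*} [MeasurableSpace Ω] (μ : Measure Ω) [IsProbabilityMeasure μ] (k : ℕ)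
  (f : V → Ω → ℝ)

omit [MeasurableSpace Ω] in
lemma itSum_succ (a : ℕ) (v : V) (ω : Ω) :
    itSum G k f (a + 1) v ω = ∑ u ∈ sphereF G v k, itSum G k f a u ω := by
  simp only [itSum, Function.iterate_succ_apply']; rfl

lemma measurable_itSum (hf : ∀ v, Measurable (f v)) : ∀ a v, Measurable (itSum G k f a v) := by
  intro a
  induction a with
  | zero => exact fun v => hf v
  | succ a ih =>
    intro v
    simp only [funext (itSum_succ k f a v)]
    exact Finset.measurable_sum _ fun u _ => ih u

omit [MeasurableSpace Ω] in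
lemma abs_itSum_le (hb : ∀ v ω, |f v ω| ≤ 1) : ∀ a v, ∃ C, ∀ ω, |itSum G k f a v ω| ≤ C := by
  intro a
  induction a with
  | zero => exact fun v => ⟨1, fun ω => hb v ω⟩
  | succ a ih =>
    intro v
    choose C hC using ih
    refine ⟨∑ u ∈ sphereF G v k, C u, fun ω => ?_⟩
    rw [itSum_succ]
    exact (Finset.abs_sum_le_sum_abs _ _).trans (Finset.sum_le_sum fun u _ => hC u ω)

lemma integrable_itSum_mul (hf : ∀ v, Measurable (f v)) (hb : ∀ v ω, |f v ω| ≤ 1) (a b : ℕ)
    (u v : V) : Integrable (fun ω => itSum G k f a u ω * itSum G k f b v ω) μ := by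
  obtain ⟨C, hC⟩ := abs_itSum_le (G := G) k f hb a u
  obtain ⟨D, hD⟩ := abs_itSum_le (G := G) k f hb b v
  refine integrable_of_bounded ((measurable_itSum k f hf a u).mul (measurable_itSum k f hf b v))
    (C := C * D) fun ω => ?_
  rw [abs_mul]
  exact mul_le_mul (hC ω) (hD ω) (abs_nonneg _) ((abs_nonneg _).trans (hC ω))

variable (hG : G.IsTree) (hreg : ∀ v, G.degree v = d) (hf : ∀ v, Measurable (f v))
  (hb : ∀ v ω, |f v ω| ≤ 1)
  (hinv : ∀ (e : G ≃g G) u v, ∫ ω, f (e u) ω * f (e v) ω ∂μ = ∫ ω, f u ω * f v ω ∂μ)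
include hG hf hb hinv

lemma itSum_inv : ∀ a b (e : G ≃g G) u v,
    ∫ ω, itSum G k f a (e u) ω * itSum G k f b (e v) ω ∂μ =
      ∫ ω, itSum G k f a u ω * itSum G k f b v ω ∂μ := by
  intro a
  induction a with
  | zero =>
    intro b
    induction b with
    | zero => exact hinv
    | succ b ih =>
      intro e u v
      simp only [itSum_succ, Finset.mul_sum]
      rw [integral_finsetSum _ fun w _ => integrable_itSum_mul μ k f hf hb 0 b _ _,
        integral_finsetSum _ fun w _ => integrable_itSum_mul μ k f hf hb 0 b _ _,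
        ← sphereF_map hG e v k, Finset.sum_image fun x _ y _ h => e.injective h]
      exact Finset.sum_congr rfl fun w _ => ih e u w
  | succ a ih =>
    intro b e u v
    simp only [itSum_succ, Finset.sum_mul]
    rw [integral_finsetSum _ fun w _ => integrable_itSum_mul μ k f hf hb a b _ _,
      integral_finsetSum _ fun w _ => integrable_itSum_mul μ k f hf hb a b _ _,
      ← sphereF_map hG e u k, Finset.sum_image fun x _ y _ h => e.injective h]
    exact Finset.sum_congr rfl fun w _ => ih b e w v

include hreg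

/-- The spherical sum is symmetric. -/
lemma itSum_shift (o : V) : ∀ a b,
    ∫ ω, itSum G k f a o ω * itSum G k f b o ω ∂μ =
      ∫ ω, f o ω * itSum G k f (a + b) o ω ∂μ := by
  intro a
  induction a with
  | zero => intro b; simp [itSum]
  | succ a ih =>
    intro b
    have e : ∫ ω, itSum G k f (a + 1) o ω * itSum G k f b o ω ∂μ =
        ∫ ω, itSum G k f a o ω * itSum G k f (b + 1) o ω ∂μ := by
      simp only [itSum_succ, Finset.sum_mul, Finset.mul_sum]
      rw [integral_finsetSum _ fun w _ => integrable_itSum_mul μ k f hf hb a b _ _,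
        integral_finsetSum _ fun w _ => integrable_itSum_mul μ k f hf hb a b _ _]
      refine Finset.sum_congr rfl fun w _ => ?_
      obtain ⟨φ, h1, h2⟩ := exists_swap hG hreg o w
      conv_rhs => rw [← itSum_inv μ k f hG hf hb hinv a b φ o w, h1, h2]
    rw [e, ih (b + 1), show a + (b + 1) = a + 1 + b by omega]

/-- The spherical correlation of a finite-range invariant field. -/
theorem abs_corr_le (hd : 3 ≤ d) (o : V) {R : ℕ}
    (hR : ∀ u v, R < G.dist u v → ∫ ω, f u ω * f v ω ∂μ = 0) :
    |∑ v ∈ sphereF G o k, ∫ ω, f o ω * f v ω ∂μ| ≤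
      2 * ((k : ℝ) + 1) * Real.sqrt ((d : ℝ) - 1) ^ k := by
  set lam := 2 * ((k : ℝ) + 1) * Real.sqrt ((d : ℝ) - 1) ^ k with hlam
  have hsq := sqrt_deg_pos hd
  have hlam0 : 0 < lam := by positivity
  set b : ℕ → ℝ := fun a => ∫ ω, f o ω * itSum G k f a o ω ∂μ with hbdef
  -- growth
  set K := Real.sqrt ((d : ℝ) - 1) ^ R with hK
  have hK0 : 0 ≤ K := pow_nonneg hsq.le _
  have hpt : ∀ v, |∫ ω, f o ω * f v ω ∂μ| ≤ K * treeWeight G d o v := by
    intro v
    by_cases h : R < G.dist o v
    · rw [hR o v h, abs_zero]; exact mul_nonneg hK0 (pow_nonneg (by positivity) _)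
    · refine (abs_integral_le_of_bound (C := 1) fun ω => ?_).trans ?_
      · rw [abs_mul]; exact mul_le_one₀ (hb o ω) (abs_nonneg _) (hb v ω)
      · rw [hK, treeWeight, one_div, inv_pow, ← div_eq_mul_inv, le_div_iff₀ (pow_pos hsq _),
          one_mul]
        refine pow_le_pow_right₀ ?_ (not_lt.1 h)
        rw [Real.one_le_sqrt]
        have : (3 : ℝ) ≤ d := by exact_mod_cast hd
        linarith
  have hgrow : ∀ a v, |∫ ω, f o ω * itSum G k f a v ω ∂μ| ≤
      K * lam ^ a * treeWeight G d o v := by
    intro a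
    induction a with
    | zero => intro v; simpa [itSum] using hpt v
    | succ a ih =>
      intro v
      simp only [itSum_succ, Finset.mul_sum]
      rw [integral_finsetSum _ fun w _ => by
        simpa [itSum] using integrable_itSum_mul (G := G) μ k f hf hb 0 a o w]
      refine (Finset.abs_sum_le_sum_abs _ _).trans ((Finset.sum_le_sum fun w _ => ih w).trans ?_)
      rw [← Finset.mul_sum]
      refine (mul_le_mul_of_nonneg_left (sphereSum_weight_le hG hd hreg o k v)
        (mul_nonneg hK0 (pow_nonneg hlam0.le a))).trans_eq ?_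
      rw [hlam, pow_succ]; ring
  have hdouble : ∀ a, b a ^ 2 ≤ b (a + a) := by
    intro a
    have i1 : Integrable (fun ω => f o ω * itSum G k f a o ω) μ := by
      simpa [itSum] using integrable_itSum_mul (G := G) μ k f hf hb 0 a o o
    have i2 : Integrable (fun ω => itSum G k f a o ω * itSum G k f a o ω) μ :=
      integrable_itSum_mul μ k f hf hb a a o o
    have i3 : Integrable (fun ω => f o ω * f o ω) μ :=
      integrable_of_bounded ((hf o).mul (hf o)) (C := 1) fun ω => by
        rw [abs_mul]; exact mul_le_one₀ (hb o ω) (abs_nonneg _) (hb o ω)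
    have e : ∫ ω, (itSum G k f a o ω - b a * f o ω) ^ 2 ∂μ =
        b (a + a) - 2 * b a * b a + b a ^ 2 * ∫ ω, f o ω * f o ω ∂μ := by
      have e1 : (fun ω => (itSum G k f a o ω - b a * f o ω) ^ 2) = fun ω =>
          itSum G k f a o ω * itSum G k f a o ω - 2 * b a * (f o ω * itSum G k f a o ω) +
            b a ^ 2 * (f o ω * f o ω) := by
        funext ω; ring
      have i12 : Integrable (fun ω => itSum G k f a o ω * itSum G k f a o ω -
          2 * b a * (f o ω * itSum G k f a o ω)) μ := i2.sub (i1.const_mul _)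
      rw [e1, integral_add i12 (i3.const_mul _),
        integral_sub i2 (i1.const_mul _), integral_const_mul, integral_const_mul,
        itSum_shift μ k f hG hreg hf hb hinv o a a]
    have hnn : 0 ≤ ∫ ω, (itSum G k f a o ω - b a * f o ω) ^ 2 ∂μ :=
      integral_nonneg fun ω => sq_nonneg _
    have h1 : ∫ ω, f o ω * f o ω ∂μ ≤ 1 := (le_abs_self _).trans (abs_integral_le_of_bound fun ω => by
      rw [abs_mul]; exact mul_le_one₀ (hb o ω) (abs_nonneg _) (hb o ω))
    nlinarith [mul_le_mul_of_nonneg_left h1 (sq_nonneg (b a))]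
  have hb1 : b 1 = ∑ v ∈ sphereF G o k, ∫ ω, f o ω * f v ω ∂μ := by
    simp only [hbdef, itSum_succ, Finset.mul_sum]
    rw [integral_finsetSum _ fun w _ => by
      simpa [itSum] using integrable_itSum_mul (G := G) μ k f hf hb 0 0 o w]
    rfl
  rw [← hb1]
  have hiter : ∀ j : ℕ, |b 1| ^ (2 ^ j) ≤ |b (2 ^ j)| := by
    intro j
    induction j with
    | zero => simp
    | succ j ih =>
      rw [pow_succ 2 j, pow_mul]
      refine (pow_le_pow_left₀ (pow_nonneg (abs_nonneg _) _) ih 2).trans ?_
      rw [sq_abs, mul_two]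
      exact (hdouble _).trans (le_abs_self _)
  by_contra hlt
  push Not at hlt
  have hq : 1 < |b 1| / lam := (one_lt_div hlam0).2 hlt
  obtain ⟨N, hN⟩ := pow_unbounded_of_one_lt K hq
  have hN2 : N ≤ 2 ^ N := Nat.lt_two_pow_self.le
  have h1 := (hiter N).trans (hgrow (2 ^ N) o)
  have hwo : treeWeight G d o o = 1 := by simp [treeWeight]
  rw [hwo, mul_one] at h1
  have h2 : (|b 1| / lam) ^ (2 ^ N) ≤ K := by
    rw [div_pow, div_le_iff₀ (pow_pos hlam0 _)]; exact h1
  linarith [(pow_le_pow_right₀ hq.le hN2).trans h2]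

end field

end Vale.Agent.P161.Converse
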