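import Vale.Agent.P161.Converse.Schur
import Vale.Agent.P161.Joint

/-!
A free Ising state that is a factor of IID satisfies `(d-1) θ ^ 2 ≤ 1`: its spins are limits in
mean of finite-range invariant fields, whose spherical correlations decay like `√(d-1) ^ (-k)`.
-/

namespace Vale.Agent.P161.Converse

open MeasureTheory SimpleGraph Finset Filter
open scoped unitInterval Topology symmDiff

section mix

variable {ι : Type*} [DecidableEq ι]

/-- The coordinates of `x` on `B`, those of `y` elsewhere. -/
def mix (B : Finset ι) (p : (ι → I) × (ι → I)) : ι → I := fun i => if i ∈ B then p.1 i else p.2 i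

lemma measurable_mix (B : Finset ι) : Measurable (mix B) := by
  refine measurable_pi_lambda _ fun i => ?_
  by_cases h : i ∈ B
  · simp only [mix, if_pos h]; exact (measurable_pi_apply i).comp measurable_fst
  · simp only [mix, if_neg h]; exact (measurable_pi_apply i).comp measurable_snd

lemma map_mix (B : Finset ι) : ((PU ι).prod (PU ι)).map (mix B) = PU ι := by
  refine Measure.eq_infinitePi _ fun s t ht => ?_
  rw [Measure.map_apply (measurable_mix B) (.pi s.countable_toSet fun _ _ => ht _)]
  have e : mix B ⁻¹' Set.pi (s : Set ι) t =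
      Set.pi ((s.filter (· ∈ B) : Finset ι) : Set ι) t ×ˢ
        Set.pi ((s.filter (fun i => i ∉ B) : Finset ι) : Set ι) t := by
    ext ⟨x, y⟩
    simp only [Set.mem_preimage, Set.mem_pi, Finset.mem_coe, Set.mem_prod, Finset.mem_filter, mix]
    constructor
    · intro h
      exact ⟨fun i hi => by simpa [hi.2] using h i hi.1, fun i hi => by simpa [hi.2] using h i hi.1⟩
    · rintro ⟨h1, h2⟩ i hi
      by_cases hB : i ∈ B
      · simpa [hB] using h1 i ⟨hi, hB⟩
      · simpa [hB] using h2 i ⟨hi, hB⟩
  rw [e, Measure.prod_prod, PU, Measure.infinitePi_pi _ (fun i _ => ht i),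
    Measure.infinitePi_pi _ (fun i _ => ht i), Finset.prod_filter_mul_prod_filter_not]

/-- The average of `F` over the coordinates outside `B`. -/
noncomputable def proj (B : Finset ι) (F : (ι → I) → ℝ) (x : ι → I) : ℝ :=
  ∫ y, F (mix B (x, y)) ∂(PU ι)

variable {F : (ι → I) → ℝ} (hF : Measurable F) (hb : ∀ x, |F x| ≤ 1)
include hF hb

omit hF in
lemma abs_proj_le (B : Finset ι) (x : ι → I) : |proj B F x| ≤ 1 :=
  abs_integral_le_of_bound fun _ => hb _

omit hb in
lemma measurable_proj (B : Finset ι) : Measurable (proj B F) :=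
  (hF.comp (measurable_mix B)).stronglyMeasurable.integral_prod_right'.measurable

lemma integral_proj (B : Finset ι) : ∫ x, proj B F x ∂(PU ι) = ∫ x, F x ∂(PU ι) := by
  conv_rhs => rw [← map_mix B, integral_map (measurable_mix B).aemeasurable hF.aestronglyMeasurable,
    integral_prod _ (integrable_of_bounded (hF.fun_comp (measurable_mix B)) fun p => hb _)]
  rfl

/-- Averages over disjoint sets are independent. -/
lemma integral_proj_mul {G' : (ι → I) → ℝ} (hG : Measurable G') (hGb : ∀ x, |G' x| ≤ 1)
    {B B' : Finset ι} (hBB : Disjoint B B') :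
    ∫ x, proj B F x * proj B' G' x ∂(PU ι) =
      (∫ x, F x ∂(PU ι)) * ∫ x, G' x ∂(PU ι) := by
  have h1 : ∀ x y : ι → I, proj B F (mix B (x, y)) = proj B F x := fun x y => by
    simp only [proj]
    congr 1
    funext z
    congr 1
    funext i
    by_cases hi : i ∈ B <;> simp [mix, hi]
  have h2 : ∀ x y : ι → I, proj B' G' (mix B (x, y)) = proj B' G' y := fun x y => by
    simp only [proj]
    congr 1
    funext z
    congr 1
    funext i
    by_cases hi : i ∈ B'
    · simp [mix, hi, Finset.disjoint_right.1 hBB hi]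
    · simp [mix, hi]
  have hm : Measurable fun x => proj B F x * proj B' G' x :=
    (measurable_proj hF B).mul (measurable_proj hG B')
  have hmb : ∀ x, |proj B F x * proj B' G' x| ≤ 1 := fun x => by
    rw [abs_mul]; exact mul_le_one₀ (abs_proj_le hb B x) (abs_nonneg _) (abs_proj_le hGb B' x)
  conv_lhs => rw [← map_mix B, integral_map (measurable_mix B).aemeasurable hm.aestronglyMeasurable,
    integral_prod _ (integrable_of_bounded (hm.fun_comp (measurable_mix B)) fun p => hmb _)]
  simp only [h1, h2, integral_const_mul, integral_mul_const]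
  rw [integral_proj hF hb B, integral_proj hG hGb B']

/-- Averaging loses at most twice the distance to a function of the coordinates in `B`. -/
lemma integral_abs_proj_sub_le {B : Finset ι} {h : (ι → I) → ℝ} (hh : Measurable h)
    (hhb : ∀ x, |h x| ≤ 1) (hdep : ∀ x y, h (mix B (x, y)) = h x) :
    ∫ x, |proj B F x - F x| ∂(PU ι) ≤ 2 * ∫ x, |h x - F x| ∂(PU ι) := by
  have hd : Measurable fun x => |h x - F x| := (hh.sub hF).abs
  have hdb : ∀ x, |h x - F x| ≤ 2 := fun x =>
    (abs_sub _ _).trans (by linarith [hb x, hhb x])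
  have hi := integrable_of_bounded (P := PU ι) hd (C := 2) fun x => by rw [abs_abs]; exact hdb x
  have hm2 : Measurable fun x => ∫ y, |h (mix B (x, y)) - F (mix B (x, y))| ∂(PU ι) :=
    (hd.comp (measurable_mix B)).stronglyMeasurable.integral_prod_right'.measurable
  have hi2 : Integrable (fun x => ∫ y, |h (mix B (x, y)) - F (mix B (x, y))| ∂(PU ι)) (PU ι) :=
    integrable_of_bounded hm2 (C := 2) fun x => abs_integral_le_of_bound fun y => by
      rw [abs_abs]; exact hdb _
  refine (integral_mono_of_nonneg (ae_of_all _ fun x => abs_nonneg _) (hi2.add hi)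
    (ae_of_all _ fun x => ?_)).trans_eq ?_
  · have e : h x = ∫ y, h (mix B (x, y)) ∂(PU ι) := by simp [hdep]
    have ih : Integrable (fun y => h (mix B (x, y))) (PU ι) :=
      integrable_of_bounded ((hh.comp (measurable_mix B)).comp measurable_prodMk_left) fun y => hhb _
    have iF : Integrable (fun y => F (mix B (x, y))) (PU ι) :=
      integrable_of_bounded ((hF.comp (measurable_mix B)).comp measurable_prodMk_left) fun y => hb _
    have key : |proj B F x - h x| ≤ ∫ y, |h (mix B (x, y)) - F (mix B (x, y))| ∂(PU ι) := by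
      rw [abs_sub_comm, e, proj, ← integral_sub ih iF]
      exact abs_integral_le_integral_abs
    exact (abs_sub_le _ (h x) _).trans (add_le_add key le_rfl)
  · simp only [Pi.add_apply]
    rw [integral_add hi2 hi]
    have e : ∫ x, ∫ y, |h (mix B (x, y)) - F (mix B (x, y))| ∂(PU ι) ∂(PU ι) =
        ∫ x, |h x - F x| ∂(PU ι) := by
      conv_rhs => rw [← map_mix B, integral_map (measurable_mix B).aemeasurable
        hd.aestronglyMeasurable, integral_prod _ (integrable_of_bounded
          (hd.fun_comp (measurable_mix B)) (C := 2) fun p => by rw [abs_abs]; exact hdb _)]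
    rw [e]; ring

omit hb in
/-- Functions are approximated in mean by functions of finitely many coordinates. -/
lemma exists_finite_approx (h01 : ∀ x, F x = 1 ∨ F x = -1) {δ : ℝ} (hδ : 0 < δ) :
    ∃ (s : Finset ι) (h : (ι → I) → ℝ), Measurable h ∧ (∀ x, |h x| ≤ 1) ∧
      (∀ B, s ⊆ B → ∀ x y, h (mix B (x, y)) = h x) ∧
      ∫ x, |h x - F x| ∂(PU ι) ≤ δ := by
  classical
  set A : Set (ι → I) := F ⁻¹' {1} with hA
  have hAm : MeasurableSet A := hF (measurableSet_singleton 1)
  obtain ⟨t, ht, htA⟩ := exists_measure_symmDiff_lt_of_generateFrom_isSetRing (μ := PU ι)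
    isSetRing_measurableCylinders
    ⟨{Set.univ}, Set.countable_singleton _,
      Set.singleton_subset_iff.2 (univ_mem_measurableCylinders _), by simp⟩
    generateFrom_measurableCylinders.symm hAm (ε := ENNReal.ofReal (δ / 2))
    (ENNReal.ofReal_pos.2 (by linarith))
  obtain ⟨s, S, hS, rfl⟩ := (mem_measurableCylinders _).1 ht
  set t : Set (ι → I) := cylinder s S with htdef
  have htm : MeasurableSet t := hS.cylinder s
  refine ⟨s, fun x => if x ∈ t then 1 else -1,
    Measurable.ite htm measurable_const measurable_const,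
    fun x => by by_cases hx : x ∈ t <;> simp [hx], fun B hsB x y => ?_, ?_⟩
  · have hmem : mix B (x, y) ∈ t ↔ x ∈ t := by
      simp only [htdef, mem_cylinder]
      have hrestr : s.restrict (mix B (x, y)) = s.restrict x :=
        funext fun i => if_pos (hsB i.2)
      rw [hrestr]
    by_cases hx : x ∈ t <;> simp [hx, hmem]
  · have hD : MeasurableSet (t ∆ A) := htm.symmDiff hAm
    refine (integral_mono_of_nonneg (ae_of_all _ fun x => abs_nonneg _)
      ((integrable_const (2 : ℝ)).indicator hD) (ae_of_all _ fun x => ?_)).trans ?_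
    · have hxA : x ∈ A ↔ F x = 1 := Iff.rfl
      by_cases hx : x ∈ t <;> rcases h01 x with hv | hv
      · simp [hx, hv, Set.indicator_nonneg]
      · have : x ∈ t ∆ A := Or.inl ⟨hx, fun h => by rw [hxA, hv] at h; norm_num at h⟩
        simp [hx, hv, Set.indicator_of_mem this]; norm_num
      · have : x ∈ t ∆ A := Or.inr ⟨hxA.2 hv, hx⟩
        simp [hx, hv, Set.indicator_of_mem this]; norm_num
      · simp [hx, hv, Set.indicator_nonneg]
    · rw [integral_indicator_const _ hD, smul_eq_mul, measureReal_def]
      have := ENNReal.toReal_mono ENNReal.ofReal_ne_top htA.le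
      rw [ENNReal.toReal_ofReal (by linarith)] at this
      linarith

end mix

variable {V : Type*} [DecidableEq V] {G : SimpleGraph V} [G.LocallyFinite] {d : ℕ} {θ : ℝ}

omit [G.LocallyFinite] in
/-- The two-point function of the free Ising weights. -/
lemma zsum_spin_spin (hG : G.IsTree) {o : V} :
    ∀ S, Conn G S → o ∈ S → ∀ v ∈ S,
      zsum G θ S (fun _ _ => 1) (fun A => spin A o * spin A v) = θ ^ G.dist o v := by
  intro S
  induction hn : S.card using Nat.strong_induction_on generalizing S with
  | _ n ih =>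
    subst hn
    intro hS ho v hv
    by_cases hne : ({o} : Finset V) = S
    · subst hne
      rw [Finset.mem_singleton] at hv
      subst hv
      rw [zsum_singleton]
      simp [spin]
      norm_num
    obtain ⟨w, hw, hwo, p, hp, hadj, hd', huniq, hconn⟩ :=
      exists_leaf hG hS (conn_singleton o) (by simpa using ho) (Finset.mem_singleton_self o) hne
    rw [Finset.mem_singleton] at hwo
    have hoS : o ∈ S.erase w := Finset.mem_erase.2 ⟨Ne.symm hwo, ho⟩
    have hcard := Finset.card_erase_lt_of_mem hw
    rw [zsum_leaf hw hp hadj huniq]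
    by_cases hvw : v = w
    · subst hvw
      have hd2 : G.dist o v = G.dist o p + 1 := hd'.symm
      rw [hd2, pow_succ, ← ih _ hcard _ rfl hconn hoS p hp, zsum, zsum, Finset.sum_mul]
      refine Finset.sum_congr rfl fun A hA => ?_
      have hvA : v ∉ A := fun h => Finset.notMem_erase v S (Finset.mem_powerset.1 hA h)
      simp only [spin_of_notMem hvA, spin_insert_self, spin_insert_of_ne (Ne.symm hwo),
        Finset.prod_const_one, mul_one]
      ring
    · have hvS : v ∈ S.erase w := Finset.mem_erase.2 ⟨hvw, hv⟩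
      rw [← ih _ hcard _ rfl hconn hoS v hvS, zsum, zsum]
      refine Finset.sum_congr rfl fun A _ => ?_
      simp only [spin_insert_of_ne (Ne.symm hwo), spin_insert_of_ne hvw, Finset.prod_const_one, mul_one]
      ring

/-- The spin as a real number. -/
def bval (b : Bool) : ℝ := if b then 1 else -1

lemma bval_cases (b : Bool) : bval b = 1 ∨ bval b = -1 := by cases b <;> simp [bval]

lemma abs_bval (b : Bool) : |bval b| ≤ 1 := by cases b <;> simp [bval]

section factor

variable [Countable V] {Φ : (V → I) → V → Bool} (hm : Measurable Φ)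
  (hlaw : ∀ D : Finset V, Conn G D → ∀ b : V → Bool,
    (PU V).real {ω | ∀ u ∈ D, Φ ω u = b u} = wt G θ D (D.filter fun u => b u = true))
include hm hlaw

omit [G.LocallyFinite] [Countable V] in
/-- Expectations of functions of the pattern on a connected set. -/
lemma integral_pattern {D : Finset V} (hD : Conn G D) (ψ : Finset V → ℝ) :
    ∫ ω, ψ (D.filter fun u => Φ ω u = true) ∂(PU V) = zsum G θ D (fun _ _ => 1) ψ := by
  classical
  set E : Finset V → Set (V → I) := fun A => {ω | ∀ u ∈ D, Φ ω u = decide (u ∈ A)} with hE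
  have hEm : ∀ A, MeasurableSet (E A) := fun A => by
    have : E A = ⋂ u ∈ D, {ω | Φ ω u = decide (u ∈ A)} := by ext ω; simp [hE]
    rw [this]
    exact D.measurableSet_biInter fun u _ =>
      ((measurable_pi_apply u).comp hm) (measurableSet_singleton (decide (u ∈ A)))
  have hpt : ∀ ω, ψ (D.filter fun u => Φ ω u = true) =
      ∑ A ∈ D.powerset, (E A).indicator (fun _ => ψ A) ω := by
    intro ω
    rw [Finset.sum_eq_single_of_mem (D.filter fun u => Φ ω u = true)
      (Finset.mem_powerset.2 (Finset.filter_subset _ _)) fun A hA hne => ?_]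
    · rw [Set.indicator_of_mem]
      intro u hu
      by_cases h : Φ ω u = true <;> simp [h, hu]
    · rw [Set.indicator_of_notMem]
      intro h
      refine hne (Finset.ext fun u => ?_)
      by_cases hu : u ∈ D
      · simp [hu, h u hu]
      · simp only [Finset.mem_filter, hu, false_and, iff_false]
        exact fun h' => hu (Finset.mem_powerset.1 hA h')
  simp only [hpt]
  rw [integral_finsetSum _ fun A _ => (integrable_const (ψ A)).indicator (hEm A), zsum]
  refine Finset.sum_congr rfl fun A hA => ?_
  rw [integral_indicator_const _ (hEm A), smul_eq_mul, Finset.prod_const_one, mul_one, hE,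
    hlaw D hD fun u => decide (u ∈ A)]
  congr 2
  ext u
  simp only [Finset.mem_filter, decide_eq_true_eq]
  exact ⟨fun h => h.2, fun h => ⟨Finset.mem_powerset.1 hA h, h⟩⟩

omit [G.LocallyFinite] [Countable V] in
lemma integral_spin (o : V) : ∫ ω, bval (Φ ω o) ∂(PU V) = 0 := by
  have e : ∀ ω, bval (Φ ω o) = spin (({o} : Finset V).filter fun u => Φ ω u = true) o := fun ω => by
    cases h : Φ ω o <;> simp [bval, spin, h]
  simp only [e, integral_pattern hm hlaw (conn_singleton o) fun A => spin A o]
  rw [zsum_singleton]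
  simp [spin]

variable (hG : G.IsTree)
include hG

omit [Countable V] in
lemma integral_spin_spin (o v : V) :
    ∫ ω, bval (Φ ω o) * bval (Φ ω v) ∂(PU V) = θ ^ G.dist o v := by
  set D := ballF G o (G.dist o v)
  have ho : o ∈ D := self_mem_ballF o _
  have hv : v ∈ D := (mem_ballF hG _ _ _).2 le_rfl
  have e : ∀ ω, bval (Φ ω o) * bval (Φ ω v) =
      spin (D.filter fun u => Φ ω u = true) o * spin (D.filter fun u => Φ ω u = true) v := fun ω => by
    cases h1 : Φ ω o <;> cases h2 : Φ ω v <;> simp [bval, spin, h1, h2, ho, hv]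
  simp only [e]
  exact (integral_pattern hm hlaw (conn_ballF hG o _) fun A => spin A o * spin A v).trans
    (zsum_spin_spin hG D (conn_ballF hG o _) ho v hv)

variable (hd : 3 ≤ d) (hreg : ∀ v, G.degree v = d)
  (heq : ∀ φ : G ≃g G, ∀ᵐ ω ∂(PU V),
    Φ (fun v => ω (φ.symm v)) = fun v => Φ ω (φ.symm v))
include hd hreg heq

/-- The averaged spin at `v`. -/
noncomputable def blockSpin (G : SimpleGraph V) [G.LocallyFinite] (Φ : (V → I) → V → Bool) (r : ℕ)
    (v : V) (x : V → I) : ℝ :=
  proj (ballF G v r) (fun ω => bval (Φ ω v)) x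

omit hlaw hd hreg hm hG heq [G.LocallyFinite] [Countable V] in
lemma map_relabel_PU (φ : G ≃g G) :
    (PU V).map (fun (x : V → I) w => x (φ.symm w)) = PU V := by
  classical
  refine Measure.eq_infinitePi _ fun s t ht => ?_
  rw [Measure.map_apply (measurable_pi_lambda _ fun w => measurable_pi_apply (φ.symm w))
    (.pi s.countable_toSet fun i _ => ht i)]
  have : (fun (x : V → I) w => x (φ.symm w)) ⁻¹' Set.pi (s : Set V) t =
      Set.pi ((s.image φ.symm : Finset V) : Set V) (fun j => t (φ j)) := by
    ext x
    simp only [Set.mem_preimage, Set.mem_pi, Finset.mem_coe, Finset.mem_image]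
    constructor
    · rintro h _ ⟨i, hi, rfl⟩
      simpa using h i hi
    · intro h i hi
      simpa using h (φ.symm i) ⟨i, hi, rfl⟩
  rw [this, PU, Measure.infinitePi_pi _ (fun j _ => ht _),
    Finset.prod_image fun a _ b _ h => φ.symm.injective h]
  simp

omit hlaw hd hreg [Countable V] in
/-- Averaged spins are almost surely equivariant. -/
lemma blockSpin_equivariant (r : ℕ) (φ : G ≃g G) (v : V) :
    ∀ᵐ x ∂(PU V), blockSpin G Φ r (φ v) (fun w => x (φ.symm w)) = blockSpin G Φ r v x := by
  set Tw : (V → I) → V → I := fun x w => x (φ.symm w) with hTw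
  have hTm : Measurable Tw := measurable_pi_lambda _ fun w => measurable_pi_apply _
  have hT : (PU V).map Tw = PU V := map_relabel_PU φ
  have hae : ∀ᵐ p ∂((PU V).prod (PU V)),
      Φ (Tw (mix (ballF G v r) p)) = fun w => Φ (mix (ballF G v r) p) (φ.symm w) :=
    ae_of_ae_map (p := fun x => Φ (Tw x) = fun w => Φ x (φ.symm w))
      (measurable_mix _).aemeasurable (by rw [map_mix]; exact heq φ)
  filter_upwards [Measure.ae_ae_of_ae_prod hae] with x hx
  simp only [blockSpin, proj]
  have hFm : Measurable fun y => bval (Φ (mix (ballF G (φ v) r) (Tw x, y)) (φ v)) :=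
    ((measurable_of_finite bval).comp ((measurable_pi_apply _).comp hm)).comp
      ((measurable_mix _).comp measurable_prodMk_left)
  conv_lhs => rw [← hT, integral_map hTm.aemeasurable hFm.aestronglyMeasurable]
  refine integral_congr_ae ?_
  filter_upwards [hx] with y hy
  have emix : mix (ballF G (φ v) r) (Tw x, Tw y) = Tw (mix (ballF G v r) (x, y)) := by
    funext w
    obtain ⟨u, rfl⟩ := φ.surjective w
    simp only [mix, hTw, RelIso.symm_apply_apply]
    by_cases h : u ∈ ballF G v r
    · have h' : φ u ∈ ballF G (φ v) r := by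
        rw [mem_ballF hG] at h ⊢; rwa [(Crit.geod_map hG φ v u).1]
      rw [if_pos h, if_pos h']
    · have h' : φ u ∉ ballF G (φ v) r := fun h' => h (by
        rw [mem_ballF hG] at h' ⊢; rwa [(Crit.geod_map hG φ v u).1] at h')
      rw [if_neg h, if_neg h']
  rw [emix, hy]
  simp only [RelIso.symm_apply_apply]

omit [Countable V] in
/-- A factor of IID with the free Ising law has `(d-1) θ ^ 2 ≤ 1`. -/
theorem threshold (h0 : 0 ≤ θ) : ((d : ℝ) - 1) * θ ^ 2 ≤ 1 := by
  classical
  obtain ⟨o⟩ := hG.connected.nonempty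
  set X : V → (V → I) → ℝ := fun v ω => bval (Φ ω v) with hX
  have hXm : ∀ v, Measurable (X v) := fun v =>
    (measurable_of_finite bval).comp ((measurable_pi_apply v).comp hm)
  have hXb : ∀ v ω, |X v ω| ≤ 1 := fun v ω => abs_bval _
  set f : ℕ → V → (V → I) → ℝ := fun r => blockSpin G Φ r with hf
  have hfm : ∀ r v, Measurable (f r v) := fun r v => measurable_proj (hXm v) _
  have hfb : ∀ r v ω, |f r v ω| ≤ 1 := fun r v ω => abs_proj_le (hXb v) _ ω
  have hTm : ∀ φ : G ≃g G, Measurable fun (x : V → I) w => x (φ.symm w) := fun φ =>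
    measurable_pi_lambda _ fun w => measurable_pi_apply _
  have hblk := fun r φ v => blockSpin_equivariant (G := G) hm hG heq r φ v
  have hrel := fun φ => map_relabel_PU (G := G) φ
  have hinv : ∀ r (e : G ≃g G) u v,
      ∫ ω, f r (e u) ω * f r (e v) ω ∂(PU V) = ∫ ω, f r u ω * f r v ω ∂(PU V) := by
    intro r e u v
    conv_lhs => rw [← hrel e, integral_map (hTm e).aemeasurable
      ((hfm r (e u)).fun_mul (hfm r (e v))).aestronglyMeasurable]
    refine integral_congr_ae ?_
    filter_upwards [hblk r e u, hblk r e v] with x h1 h2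
    simp only [hf, h1, h2]
  have hfar : ∀ r u v, 2 * r < G.dist u v → ∫ ω, f r u ω * f r v ω ∂(PU V) = 0 := by
    intro r u v huv
    have hdisj : Disjoint (ballF G u r) (ballF G v r) := Finset.disjoint_left.2 fun w hu hv => by
      rw [mem_ballF hG] at hu hv
      have := hG.connected.dist_triangle (u := u) (v := w) (w := v)
      rw [dist_comm (u := w) (v := v)] at this
      omega
    refine (integral_proj_mul (hXm u) (hXb u) (hXm v) (hXb v) hdisj).trans ?_
    rw [integral_spin hm hlaw u, zero_mul]
  have hclose : ∀ r v, ∫ ω, |f r v ω - X v ω| ∂(PU V) = ∫ ω, |f r o ω - X o ω| ∂(PU V) := by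
    intro r v
    obtain ⟨e, he, -⟩ := exists_swap hG hreg o v
    have hdm : Measurable fun ω => |f r v ω - X v ω| := ((hfm r v).sub (hXm v)).abs
    conv_lhs => rw [← hrel e, integral_map (hTm e).aemeasurable hdm.aestronglyMeasurable]
    refine integral_congr_ae ?_
    filter_upwards [hblk r e o, heq e] with x h1 h2
    rw [← he]
    simp only [hX, hf, h1, h2, RelIso.symm_apply_apply]
  have hk : ∀ k : ℕ, θ ^ k * Real.sqrt ((d : ℝ) - 1) ^ k ≤ 2 * ((k : ℝ) + 1) := by
    intro k
    set N : ℝ := ((sphereF G o k).card : ℝ) with hN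
    set lam := 2 * ((k : ℝ) + 1) * Real.sqrt ((d : ℝ) - 1) ^ k
    have main : ∀ δ : ℝ, 0 < δ → N * θ ^ k ≤ lam + N * (4 * δ) := by
      intro δ hδ
      obtain ⟨s, h, hhm, hhb, hdep, herr⟩ :=
        exists_finite_approx (hXm o) (fun ω => bval_cases _) hδ
      set r := s.sup fun v => G.dist o v
      have hsub : s ⊆ ballF G o r := fun v hv =>
        (mem_ballF hG _ _ _).2 (Finset.le_sup (f := fun v => G.dist o v) hv)
      have herr' : ∫ ω, |f r o ω - X o ω| ∂(PU V) ≤ 2 * δ :=
        (integral_abs_proj_sub_le (hXm o) (hXb o) hhm hhb (hdep _ hsub)).trans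
          (mul_le_mul_of_nonneg_left herr zero_le_two)
      have habs := abs_corr_le (R := 2 * r) (PU V) k (f r) hG hreg (hfm r) (hfb r) (hinv r) hd o
        (hfar r)
      have hterm : ∀ v ∈ sphereF G o k,
          θ ^ k - 4 * δ ≤ ∫ ω, f r o ω * f r v ω ∂(PU V) := by
        intro v hv
        rw [← (mem_sphereF hG).1 hv, ← integral_spin_spin hm hlaw hG o v]
        have i1 : Integrable (fun ω => f r o ω * f r v ω) (PU V) :=
          integrable_of_bounded ((hfm r o).mul (hfm r v)) (C := 1) fun ω => by
            rw [abs_mul]; exact mul_le_one₀ (hfb r o ω) (abs_nonneg _) (hfb r v ω)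
        have i2 : Integrable (fun ω => X o ω * X v ω) (PU V) :=
          integrable_of_bounded ((hXm o).mul (hXm v)) (C := 1) fun ω => by
            rw [abs_mul]; exact mul_le_one₀ (hXb o ω) (abs_nonneg _) (hXb v ω)
        have i3 : ∀ w, Integrable (fun ω => |f r w ω - X w ω|) (PU V) := fun w =>
          integrable_of_bounded ((hfm r w).sub (hXm w)).abs (C := 2) fun ω => by
            rw [abs_abs]; exact (abs_sub _ _).trans (by linarith [hfb r w ω, hXb w ω])
        have hle : ∫ ω, (X o ω * X v ω - f r o ω * f r v ω) ∂(PU V) ≤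
            ∫ ω, (|f r o ω - X o ω| + |f r v ω - X v ω|) ∂(PU V) := by
          refine integral_mono (i2.sub i1) ((i3 o).add (i3 v)) fun ω => ?_
          have e : X o ω * X v ω - f r o ω * f r v ω =
              (X o ω - f r o ω) * X v ω + f r o ω * (X v ω - f r v ω) := by ring
          rw [e]
          refine (le_abs_self _).trans ((abs_add_le _ _).trans (add_le_add ?_ ?_))
          · rw [abs_mul, abs_sub_comm]; exact mul_le_of_le_one_right (abs_nonneg _) (hXb v ω)
          · rw [abs_mul, abs_sub_comm (X v ω)]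
            exact mul_le_of_le_one_left (abs_nonneg _) (hfb r o ω)
        rw [integral_sub i2 i1, integral_add (i3 o) (i3 v), hclose r v] at hle
        simp only [hX] at hle i2 ⊢
        linarith
      have hsum := Finset.sum_le_sum hterm
      rw [Finset.sum_const, nsmul_eq_mul] at hsum
      have := le_of_abs_le habs
      rw [← hN] at hsum
      linarith
    have hNθ : N * θ ^ k ≤ lam := by
      have t : Tendsto (fun n : ℕ => lam + N * (4 * (1 / ((n : ℝ) + 1)))) atTop (𝓝 lam) := by
        simpa using ((tendsto_one_div_add_atTop_nhds_zero_nat.const_mul 4).const_mul N).const_add lam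
      exact ge_of_tendsto' t fun n => main _ (by positivity)
    have hsq := sqrt_deg_pos hd
    have hr2 : Real.sqrt ((d : ℝ) - 1) ^ 2 = (d : ℝ) - 1 := by
      have : (3 : ℝ) ≤ d := by exact_mod_cast hd
      exact Real.sq_sqrt (by linarith)
    have hcard : (Real.sqrt ((d : ℝ) - 1) ^ 2) ^ k ≤ N := by
      rw [hr2, hN, show ((d : ℝ) - 1) = ((d - 1 : ℕ) : ℝ) by rw [Nat.cast_sub (by omega)]; simp]
      exact_mod_cast le_card_sphereF hG hd hreg o k
    have h3 := (mul_le_mul_of_nonneg_right hcard (pow_nonneg h0 k)).trans hNθ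
    rw [← pow_mul, mul_comm 2 k, pow_mul, sq] at h3
    refine le_of_mul_le_mul_right ?_ (pow_pos hsq k)
    linarith
  by_contra hgt
  push Not at hgt
  have hsq := sqrt_deg_pos hd
  set a := θ * Real.sqrt ((d : ℝ) - 1) with ha
  have ha2 : a ^ 2 = ((d : ℝ) - 1) * θ ^ 2 := by
    have : (3 : ℝ) ≤ d := by exact_mod_cast hd
    rw [ha, mul_pow, Real.sq_sqrt (by linarith), mul_comm]
  have ha1 : 1 < a := by
    by_contra h
    push Not at h
    have : a ^ 2 ≤ 1 := pow_le_one₀ (mul_nonneg h0 hsq.le) h
    linarith
  have t0 := tendsto_pow_const_div_const_pow_of_one_lt 1 ha1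
  have t1 : Tendsto (fun k : ℕ => ((k : ℝ) + 1) / a ^ k) atTop (𝓝 0) := by
    have := t0.add (tendsto_pow_atTop_nhds_zero_of_lt_one (r := a⁻¹) (by positivity)
      (inv_lt_one_of_one_lt₀ ha1))
    simpa [add_div, inv_pow] using this
  obtain ⟨k, hk'⟩ := (t1.eventually_lt_const (by norm_num : (0:ℝ) < 1 / 4)).exists
  rw [div_lt_iff₀ (pow_pos (by linarith) k)] at hk'
  have := hk k
  rw [← mul_pow, ← ha] at this
  linarith [pow_pos (by linarith : (0:ℝ) < a) k]

end factor

end Vale.Agent.P161.Converse
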